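import Vale.Agent.P284.H427.G10
import Vale.Agent.P253.R2.H380.Touch

/-!
# P284, theorem AE (helper287): row AE1a (the sub-mean inequality on all circles)
-/

open scoped Topology Real
open Filter Set Metric MeasureTheory

noncomputable section

namespace Vale.Agent.P284.H287.AE

open Vale.Agent.P284.H427

/-- Lipschitz majorants -/
def reg (w : ℂ → ℝ) (S : Set ℂ) (k : ℕ) (z : ℂ) : ℝ := ⨆ ζ : S, (w ζ - k * dist z ζ)

section
variable {w : ℂ → ℝ} {S : Set ℂ} {B : ℝ}

theorem reg_bdd (hB : ∀ z, |w z| ≤ B) (k : ℕ) (z : ℂ) :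
    BddAbove (range fun ζ : S => w ζ - k * dist z ζ) := by
  refine ⟨B, ?_⟩
  rintro _ ⟨ζ, rfl⟩
  have h1 := (abs_le.1 (hB ζ)).2
  have h2 : 0 ≤ (k : ℝ) * dist z ζ := by positivity
  show w ζ - k * dist z ζ ≤ B
  linarith

theorem le_reg (hB : ∀ z, |w z| ≤ B) (k : ℕ) {z : ℂ} (hz : z ∈ S) : w z ≤ reg w S k z := by
  have h := le_ciSup (reg_bdd (S := S) hB k z) ⟨z, hz⟩
  simp only [dist_self, mul_zero, sub_zero] at h
  exact h

theorem reg_le (hB : ∀ z, |w z| ≤ B) (hS : S.Nonempty) (k : ℕ) (z : ℂ) : reg w S k z ≤ B := by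
  have : Nonempty S := hS.to_subtype
  refine ciSup_le fun ζ => ?_
  have h1 := (abs_le.1 (hB ζ)).2
  have h2 : 0 ≤ (k : ℝ) * dist z ζ := by positivity
  linarith

theorem reg_lip (hB : ∀ z, |w z| ≤ B) (hS : S.Nonempty) (k : ℕ) :
    LipschitzWith k (reg w S k) := by
  have : Nonempty S := hS.to_subtype
  refine LipschitzWith.of_le_add_mul (k : NNReal) fun x y => ?_
  refine ciSup_le fun ζ => ?_
  have h1 : w ζ - k * dist y ζ ≤ reg w S k y := le_ciSup (reg_bdd (S := S) hB k y) ζ
  have h2 : dist y ζ ≤ dist x y + dist x ζ := by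
    rw [dist_comm x y]; exact dist_triangle y x ζ
  have h3 : (k : ℝ) * dist y ζ ≤ k * (dist x y + dist x ζ) :=
    mul_le_mul_of_nonneg_left h2 (Nat.cast_nonneg k)
  have h4 : (((k : NNReal) : ℝ)) = (k : ℝ) := by simp
  rw [h4]
  linarith

theorem reg_tendsto (hB : ∀ z, |w z| ≤ B) {z : ℂ} (hz : z ∈ S) (hu : UpperSemicontinuousAt w z) :
    Tendsto (fun k => reg w S k z) atTop (𝓝 (w z)) := by
  have : Nonempty S := ⟨⟨z, hz⟩⟩
  rw [Metric.tendsto_atTop]
  intro ε hε
  obtain ⟨δ, hδ, hd⟩ := Metric.eventually_nhds_iff.1 (hu (w z + ε / 2) (by linarith))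
  obtain ⟨N, hN⟩ := exists_nat_ge (2 * B / δ)
  refine ⟨N, fun k hk => ?_⟩
  have h1 : w z ≤ reg w S k z := le_reg hB k hz
  have h2 : reg w S k z ≤ w z + ε / 2 := by
    refine ciSup_le fun ζ => ?_
    by_cases h : dist (ζ : ℂ) z < δ
    · have h3 := hd h
      have h4 : 0 ≤ (k : ℝ) * dist z ζ := by positivity
      linarith
    · push Not at h
      have h3 : 2 * B / δ ≤ k := hN.trans (by exact_mod_cast hk)
      rw [div_le_iff₀ hδ] at h3
      have h4 : (k : ℝ) * δ ≤ k * dist z ζ := by
        refine mul_le_mul_of_nonneg_left ?_ (Nat.cast_nonneg k)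
        rw [dist_comm]; exact h
      have h5 := (abs_le.1 (hB ζ)).2
      have h6 := (abs_le.1 (hB z)).1
      linarith
  rw [Real.dist_eq, abs_lt]
  constructor <;> linarith

end

/-- A function with the local sub-mean property, upper semicontinuous and bounded, is at most its mean
on each circle. -/
theorem submean {w : ℂ → ℝ} {c : ℂ} {ρ B : ℝ} (hρ : 0 < ρ)
    (husc : ∀ z ∈ closedBall c ρ, UpperSemicontinuousAt w z) (hB : ∀ z, |w z| ≤ B)
    (hmean : ∀ a ∈ ball c ρ, ∃ δ > 0, ∀ r ∈ Ioo (0 : ℝ) δ, w a ≤ Real.circleAverage w a r) :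
    w c ≤ Real.circleAverage w c ρ := by
  by_contra hcon
  push Not at hcon
  set S := sphere c ρ with hS
  have hSn : S.Nonempty := NormedSpace.sphere_nonempty.2 hρ.le
  have huS : ∀ z ∈ S, UpperSemicontinuousAt w z := fun z hz => husc z (sphere_subset_closedBall hz)
  -- the means of the majorants
  have hlim : Tendsto (fun k => Real.circleAverage (reg w S k) c ρ) atTop
      (𝓝 (Real.circleAverage w c ρ)) := by
    simp only [Real.circleAverage_def]
    refine Tendsto.const_smul ?_ _
    refine intervalIntegral.tendsto_integral_filter_of_dominated_convergence (fun _ => B) ?_ ?_ ?_ ?_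
    · refine Eventually.of_forall fun k => ?_
      exact (((reg_lip hB hSn k).continuous.comp (continuous_circleMap c ρ)).aestronglyMeasurable)
    · refine Eventually.of_forall fun k => Eventually.of_forall fun θ _ => ?_
      have hm : circleMap c ρ θ ∈ S := circleMap_mem_sphere c hρ.le θ
      have h1 := le_reg (w := w) hB k hm
      have h2 := reg_le (w := w) hB hSn k (circleMap c ρ θ)
      have h3 := (abs_le.1 (hB (circleMap c ρ θ))).1
      rw [Real.norm_eq_abs, abs_le]
      constructor <;> linarith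
    · exact intervalIntegrable_const
    · refine Eventually.of_forall fun θ _ => ?_
      have hm : circleMap c ρ θ ∈ S := circleMap_mem_sphere c hρ.le θ
      exact reg_tendsto hB hm (huS _ hm)
  obtain ⟨k, hk⟩ := (hlim.eventually (eventually_lt_nhds hcon)).exists
  obtain ⟨h, hh1, hh2⟩ := Vale.Agent.P253.R2.H380.exists_poly_majorant hρ
    ((reg_lip hB hSn k).continuous.continuousOn) hk
  obtain ⟨q, ε, z0, hε, hz0, hq0, hq⟩ := Vale.Agent.P253.R2.H380.touch_of_majorant
    (u := fun z => ((w z : ℝ) : EReal)) (c := c) (r := ρ)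
    (by
      intro z hz
      have h1 : UpperSemicontinuousAt (fun z => ((w z : ℝ) : EReal)) z :=
        continuous_coe_real_ereal.continuousAt.comp_upperSemicontinuousAt (husc z hz)
          (fun a b hab => by exact_mod_cast hab)
      exact h1.upperSemicontinuousWithinAt _)
    (fun z _ => EReal.coe_ne_top _) h
    (fun z hz => by
      have h1 := le_reg (w := w) hB k (show z ∈ S from hz)
      have h2 := hh1 z hz
      exact_mod_cast (h1.trans h2.le))
    (mem_ball_self hρ) (by exact_mod_cast hh2)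
  have hq0' : w z0 = (q.eval z0).re := by exact_mod_cast hq0
  have hq' : ∀ z ∈ closedBall c ρ, w z ≤ (q.eval z).re - ε * ‖z - z0‖ ^ 2 := fun z hz => by
    exact_mod_cast hq z hz
  obtain ⟨ρ₀, hρ₀, hsub⟩ := Metric.isOpen_iff.1 isOpen_ball z0 hz0
  obtain ⟨δ, hδ, hm⟩ := hmean z0 hz0
  set r := min (δ / 2) (ρ₀ / 2) with hr
  have hr0 : 0 < r := by positivity
  have hrδ : r < δ := (min_le_left _ _).trans_lt (by linarith)
  have hrρ : r < ρ₀ := (min_le_right _ _).trans_lt (by linarith)
  have hcb : closedBall z0 r ⊆ closedBall c ρ :=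
    (closedBall_subset_ball hrρ).trans (hsub.trans ball_subset_closedBall)
  have h1 := hm r ⟨hr0, hrδ⟩
  have i1 : CircleIntegrable w z0 r := by
    refine intervalIntegrable_usc (usc_circle fun z hz => ?_) (fun θ => hB (circleMap z0 r θ)) _ _
    rw [abs_of_pos hr0] at hz
    exact husc z (hcb (sphere_subset_closedBall hz))
  have i2 : CircleIntegrable (fun z => (q.eval z).re) z0 r := by
    apply ContinuousOn.circleIntegrable hr0.le
    exact (Complex.continuous_re.comp q.continuous).continuousOn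
  have h3 : Real.circleAverage w z0 r ≤
      Real.circleAverage (fun z => (q.eval z).re + -(ε * r ^ 2)) z0 r := by
    refine Real.circleAverage_mono i1 (i2.add (circleIntegrable_const _ _ _)) fun z hz => ?_
    have hz' : z ∈ sphere z0 r := by rwa [abs_of_pos hr0] at hz
    have h4 := hq' z (hcb (sphere_subset_closedBall hz'))
    have h5 : ‖z - z0‖ = r := by
      rw [← dist_eq_norm]; exact hz'
    rw [h5] at h4
    linarith
  have hqd : DiffContOnCl ℂ (fun z => q.eval z) (ball z0 |r|) := q.differentiable.diffContOnCl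
  have hmv : Real.circleAverage (fun z => q.eval z) z0 r = q.eval z0 := hqd.circleAverage
  have hci : CircleIntegrable (fun z => q.eval z) z0 r :=
    (q.continuous.continuousOn).circleIntegrable'
  have hmv2 := Complex.reCLM.circleAverage_comp_comm hci
  rw [hmv] at hmv2
  have hmv3 : Real.circleAverage (fun z => (q.eval z).re) z0 r = (q.eval z0).re := hmv2
  have h6 : Real.circleAverage (fun z => (q.eval z).re + -(ε * r ^ 2)) z0 r =
      (q.eval z0).re - ε * r ^ 2 := by
    rw [Real.circleAverage_fun_add i2 (circleIntegrable_const _ _ _), Real.circleAverage_const, hmv3]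
    ring
  have h7 : 0 < ε * r ^ 2 := by positivity
  linarith

end Vale.Agent.P284.H287.AE
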