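import Vale.Agent.P284.H894.AE.Spec
import Vale.Agent.P284.H287.AE.AE1a

/-! # P284, theorem AE (helper287): row AE1a, literal -/

open Set Metric

namespace Vale.Agent.P284.H287.AE

/-- **AE1a** -/
theorem ae1a : Vale.Agent.P284.H894.AE.AE1a := by
  intro w hw c ρ hρ hsub
  obtain ⟨B, hB⟩ := hw.bdd
  exact submean hρ (fun z hz => hw.usc z (hsub hz)) hB
    (fun a ha => hw.mean a (hsub (ball_subset_closedBall ha)))

end Vale.Agent.P284.H287.AE
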