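import Mathlib.MeasureTheory.Integral.IntervalIntegral.IntegrationByParts
import Mathlib.MeasureTheory.Integral.IntervalIntegral.DerivIntegrable
import Mathlib.Topology.MetricSpace.HausdorffDistance
import Mathlib.Analysis.Calculus.ContDiff.Defs
import Mathlib.Analysis.Calculus.ContDiff.Basic
import Mathlib.Analysis.Calculus.ContDiff.Deriv
import Mathlib.Analysis.SpecialFunctions.Pow.Real

/-!
# P284, theorem AE (helper287): row AE1c (the real line)
-/

open scoped Topology Real
open Filter Set Metric MeasureTheory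

noncomputable section

namespace Vale.Agent.P284.H287.AE

/-- the smooth case -/
theorem key1 {a b K : ℝ} {φ : ℝ → ℝ} (hφ : ContDiff ℝ 1 φ)
    (hK : ∫ x in Ioo a b, ‖deriv φ x‖ ^ 2 ≤ K) {ρ : ℝ → ℝ} (hρ : Continuous ρ)
    (h0 : ∀ s, 0 ≤ ρ s) (h1 : ∀ s, ρ s ≤ 1) {x y : ℝ} (hx : x ∈ Ioo a b) (hy : y ∈ Ioo a b)
    (hxy : x ≤ y) {t : ℝ} (ht : 0 < t) :
    |∫ s in (φ x)..(φ y), ρ s| ≤ t / 2 * K + 1 / (2 * t) * ∫ z in Ioo a b, ρ (φ z) := by
  have hd : Continuous (deriv φ) := hφ.continuous_deriv le_rfl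
  have hc : Continuous φ := hφ.continuous
  have e : ∫ s in x..y, (ρ ∘ φ) s * deriv φ s = ∫ s in (φ x)..(φ y), ρ s :=
    intervalIntegral.integral_comp_mul_deriv
      (fun s _ => (hφ.differentiable one_ne_zero s).hasDerivAt) hd.continuousOn hρ
  have i1 : IntegrableOn (fun s => ‖deriv φ s‖ ^ 2) (Ioo a b) :=
    ((hd.norm.pow 2).integrableOn_Icc (a := a) (b := b)).mono_set Ioo_subset_Icc_self
  have i2 : IntegrableOn (fun s => ρ (φ s)) (Ioo a b) :=
    ((hρ.comp hc).integrableOn_Icc (a := a) (b := b)).mono_set Ioo_subset_Icc_self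
  have i3 : IntegrableOn (fun s => t / 2 * ‖deriv φ s‖ ^ 2 + 1 / (2 * t) * ρ (φ s)) (Ioo a b) :=
    (i1.const_mul _).add (i2.const_mul _)
  rw [← e]
  have hpt : ∀ s, |(ρ ∘ φ) s * deriv φ s| ≤ t / 2 * ‖deriv φ s‖ ^ 2 + 1 / (2 * t) * ρ (φ s) := by
    intro s
    have h2 := h0 (φ s)
    have h3 := h1 (φ s)
    rw [Function.comp_apply, abs_mul, abs_of_nonneg h2, Real.norm_eq_abs]
    set d := |deriv φ s| with hd'
    set r := ρ (φ s) with hr
    have h4 : r ^ 2 ≤ r := by nlinarith
    have h5 : 0 ≤ (t * d - r) ^ 2 / (2 * t) := by positivity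
    have h6 : (t * d - r) ^ 2 / (2 * t) = t / 2 * d ^ 2 - r * d + 1 / (2 * t) * r ^ 2 := by
      field_simp
      ring
    have h7 : 1 / (2 * t) * r ^ 2 ≤ 1 / (2 * t) * r :=
      mul_le_mul_of_nonneg_left h4 (by positivity)
    linarith
  calc |∫ s in x..y, (ρ ∘ φ) s * deriv φ s|
      ≤ ∫ s in x..y, |(ρ ∘ φ) s * deriv φ s| := intervalIntegral.abs_integral_le_integral_abs hxy
    _ ≤ ∫ s in x..y, (t / 2 * ‖deriv φ s‖ ^ 2 + 1 / (2 * t) * ρ (φ s)) := by
        refine intervalIntegral.integral_mono_on hxy ?_ ?_ fun s _ => hpt s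
        · exact (((hρ.comp hc).mul hd).abs).intervalIntegrable _ _
        · exact (((hd.norm.pow 2).const_mul (t / 2)).add
            ((hρ.comp hc).const_mul (1 / (2 * t)))).intervalIntegrable _ _
    _ ≤ ∫ s in Ioo a b, (t / 2 * ‖deriv φ s‖ ^ 2 + 1 / (2 * t) * ρ (φ s)) := by
        rw [intervalIntegral.integral_of_le hxy]
        refine setIntegral_mono_set i3 ?_ ?_
        · refine Eventually.of_forall fun s => ?_
          exact (abs_nonneg _).trans (hpt s)
        · refine LE.le.eventuallyLE fun s hs => ?_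
          exact ⟨hx.1.trans hs.1, hs.2.trans_lt hy.2⟩
    _ = t / 2 * (∫ s in Ioo a b, ‖deriv φ s‖ ^ 2) + 1 / (2 * t) * ∫ z in Ioo a b, ρ (φ z) := by
        rw [integral_add (i1.const_mul _) (i2.const_mul _), integral_const_mul, integral_const_mul]
    _ ≤ t / 2 * K + 1 / (2 * t) * ∫ z in Ioo a b, ρ (φ z) := by
        have := mul_le_mul_of_nonneg_left hK (show (0 : ℝ) ≤ t / 2 by positivity)
        linarith

/-- limits of the functions `χ` -/
theorem lim {a b : ℝ} {g : ℝ → ℝ} (hg : AEMeasurable g (volume.restrict (Ioo a b)))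
    {u v A B : ℝ} (χ : ℕ → ℝ → ℝ) (χ' : ℝ → ℝ) (hm : ∀ m, Measurable (χ m))
    (h0 : ∀ m s, 0 ≤ χ m s) (h1 : ∀ m s, χ m s ≤ 1)
    (hl : ∀ s, Tendsto (fun m => χ m s) atTop (𝓝 (χ' s)))
    (hP : ∀ m, |∫ s in u..v, χ m s| ≤ A + B * ∫ z in Ioo a b, χ m (g z)) :
    |∫ s in u..v, χ' s| ≤ A + B * ∫ z in Ioo a b, χ' (g z) := by
  have hb : ∀ m s, ‖χ m s‖ ≤ 1 := fun m s => by
    rw [Real.norm_eq_abs, abs_of_nonneg (h0 m s)]; exact h1 m s
  have t1 : Tendsto (fun m => ∫ s in u..v, χ m s) atTop (𝓝 (∫ s in u..v, χ' s)) := by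
    refine intervalIntegral.tendsto_integral_filter_of_dominated_convergence (fun _ => 1) ?_ ?_ ?_ ?_
    · exact Eventually.of_forall fun m => (hm m).aestronglyMeasurable
    · exact Eventually.of_forall fun m => Eventually.of_forall fun s _ => hb m s
    · exact intervalIntegrable_const
    · exact Eventually.of_forall fun s _ => hl s
  have t2 : Tendsto (fun m => ∫ z in Ioo a b, χ m (g z)) atTop (𝓝 (∫ z in Ioo a b, χ' (g z))) := by
    refine tendsto_integral_of_dominated_convergence (fun _ => 1) ?_ ?_ ?_ ?_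
    · exact fun m => ((hm m).comp_aemeasurable hg).aestronglyMeasurable
    · exact integrable_const _
    · exact fun m => Eventually.of_forall fun z => hb m (g z)
    · exact Eventually.of_forall fun z => hl (g z)
  exact le_of_tendsto_of_tendsto' t1.abs ((t2.const_mul B).const_add A) hP

theorem key2 {a b K : ℝ} {f : ℕ → ℝ → ℝ} {g : ℝ → ℝ} (hf : ∀ k, ContDiff ℝ 1 (f k))
    (hl : ∀ᵐ x ∂(volume.restrict (Ioo a b)), Tendsto (fun k => f k x) atTop (𝓝 (g x)))
    (hK : ∃ᶠ k in atTop, ∫ x in Ioo a b, ‖deriv (f k) x‖ ^ 2 ≤ K) {ρ : ℝ → ℝ}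
    (hρ : Continuous ρ) (h0 : ∀ s, 0 ≤ ρ s) (h1 : ∀ s, ρ s ≤ 1) {x y : ℝ} (hx : x ∈ Ioo a b)
    (hy : y ∈ Ioo a b) (hxy : x ≤ y) (hfx : Tendsto (fun k => f k x) atTop (𝓝 (g x)))
    (hfy : Tendsto (fun k => f k y) atTop (𝓝 (g y))) {t : ℝ} (ht : 0 < t) :
    |∫ s in (g x)..(g y), ρ s| ≤ t / 2 * K + 1 / (2 * t) * ∫ z in Ioo a b, ρ (g z) := by
  have hii : ∀ u v : ℝ, IntervalIntegrable ρ volume u v := fun u v => hρ.intervalIntegrable u v
  have hΘ : Continuous fun u : ℝ => ∫ s in (0 : ℝ)..u, ρ s :=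
    intervalIntegral.continuous_primitive hii 0
  have hsub : ∀ u v : ℝ, ∫ s in u..v, ρ s = (∫ s in (0 : ℝ)..v, ρ s) - ∫ s in (0 : ℝ)..u, ρ s :=
    fun u v => (intervalIntegral.integral_interval_sub_left (hii 0 v) (hii 0 u)).symm
  have t1 : Tendsto (fun k => |∫ s in (f k x)..(f k y), ρ s|) atTop
      (𝓝 |∫ s in (g x)..(g y), ρ s|) := by
    rw [hsub (g x) (g y)]
    refine (((hΘ.tendsto _).comp hfy).sub ((hΘ.tendsto _).comp hfx)).abs.congr fun k => ?_
    rw [hsub (f k x) (f k y)]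
    rfl
  have hb : ∀ s, ‖ρ s‖ ≤ 1 := fun s => by
    rw [Real.norm_eq_abs, abs_of_nonneg (h0 s)]; exact h1 s
  have t2 : Tendsto (fun k => ∫ z in Ioo a b, ρ (f k z)) atTop (𝓝 (∫ z in Ioo a b, ρ (g z))) := by
    refine tendsto_integral_of_dominated_convergence (fun _ => 1) ?_ ?_ ?_ ?_
    · exact fun k => (hρ.comp (hf k).continuous).aestronglyMeasurable
    · exact integrable_const _
    · exact fun k => Eventually.of_forall fun z => hb _
    · filter_upwards [hl] with z hz
      exact (hρ.tendsto _).comp hz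
  have t3 := t1.sub (t2.const_mul (1 / (2 * t)))
  have h2 : |∫ s in (g x)..(g y), ρ s| - 1 / (2 * t) * ∫ z in Ioo a b, ρ (g z) ≤ t / 2 * K := by
    refine le_of_tendsto_of_frequently t3 (hK.mono fun k hk => ?_)
    have := key1 (hf k) hk hρ h0 h1 hx hy hxy ht
    linarith
  linarith

/-- **AE1c** -/
theorem real_line (a b K : ℝ) (hab : a < b) (f : ℕ → ℝ → ℝ) (g : ℝ → ℝ)
    (hf : ∀ k, ContDiff ℝ 1 (f k))
    (hl : ∀ᵐ x ∂(volume.restrict (Ioo a b)), Tendsto (fun k => f k x) atTop (𝓝 (g x)))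
    (hK : ∃ᶠ k in atTop, ∫ x in Ioo a b, ‖deriv (f k) x‖ ^ 2 ≤ K) (C₀ : Set ℝ)
    (hC : C₀.Countable) (hg : ∀ᵐ x ∂(volume.restrict (Ioo a b)), g x ∈ C₀) :
    ∃ c : ℝ, ∀ᵐ x ∂(volume.restrict (Ioo a b)), g x = c := by
  have hgm : AEMeasurable g (volume.restrict (Ioo a b)) :=
    aemeasurable_of_tendsto_metrizable_ae atTop
      (fun k => (hf k).continuous.measurable.aemeasurable) hl
  have hne : (ae (volume.restrict (Ioo a b))).NeBot := by
    rw [ae_neBot, Ne, Measure.restrict_eq_zero, Real.volume_Ioo]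
    simp [hab]
  have hx : ∀ᵐ x ∂(volume.restrict (Ioo a b)), x ∈ Ioo a b := ae_restrict_mem measurableSet_Ioo
  obtain ⟨x₀, hx₀, hx₀l, hx₀C⟩ := (hx.and (hl.and hg)).exists
  obtain ⟨e, he⟩ := hC.exists_eq_range ⟨g x₀, hx₀C⟩
  -- finite sets
  let F : ℕ → Set ℝ := fun M => e '' (Set.Iic M)
  have hFf : ∀ M, (F M).Finite := fun M => (Set.finite_Iic M).image e
  have hFn : ∀ M, (F M).Nonempty := fun M => ⟨e 0, 0, Nat.zero_le M, rfl⟩
  have main : ∀ x y : ℝ, x ∈ Ioo a b → y ∈ Ioo a b → x ≤ y →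
      Tendsto (fun k => f k x) atTop (𝓝 (g x)) → Tendsto (fun k => f k y) atTop (𝓝 (g y)) →
      g y = g x := by
    intro x y hx hy hxy hfx hfy
    have h1 : ∀ t : ℝ, 0 < t → ∀ M : ℕ,
        |∫ s in (g x)..(g y), (F M)ᶜ.indicator (fun _ => (1 : ℝ)) s| ≤
          t / 2 * K + 1 / (2 * t) * ∫ z in Ioo a b, (F M)ᶜ.indicator (fun _ => (1 : ℝ)) (g z) := by
      intro t ht M
      refine lim hgm (fun m s => min 1 (m * infDist s (F M))) _ (fun m => ?_) (fun m s => ?_)
        (fun m s => min_le_left _ _) (fun s => ?_) (fun m => ?_)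
      · exact (continuous_const.min (continuous_const.mul
          (continuous_infDist_pt _))).measurable
      · exact le_min zero_le_one (mul_nonneg (Nat.cast_nonneg m) infDist_nonneg)
      · by_cases hs : s ∈ F M
        · have h2 : infDist s (F M) = 0 := infDist_zero_of_mem hs
          simp only [h2, mul_zero]
          rw [indicator_of_notMem (by simpa using hs)]
          have : min (1 : ℝ) 0 = 0 := min_eq_right zero_le_one
          rw [this]
          exact tendsto_const_nhds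
        · have h2 : 0 < infDist s (F M) :=
            ((hFf M).isClosed.notMem_iff_infDist_pos (hFn M)).1 hs
          rw [indicator_of_mem (by simpa using hs)]
          refine tendsto_const_nhds.congr' ?_
          obtain ⟨N, hN⟩ := exists_nat_ge (1 / infDist s (F M))
          filter_upwards [eventually_ge_atTop N] with m hm
          have h3 : 1 / infDist s (F M) ≤ m := hN.trans (by exact_mod_cast hm)
          rw [div_le_iff₀ h2] at h3
          exact (min_eq_left h3).symm
      · exact key2 hf hl hK (continuous_const.min (continuous_const.mul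
          (continuous_infDist_pt _))) (fun s => le_min zero_le_one
          (mul_nonneg (Nat.cast_nonneg m) infDist_nonneg)) (fun s => min_le_left _ _)
          hx hy hxy hfx hfy ht
    have h2 : ∀ t : ℝ, 0 < t →
        |∫ s in (g x)..(g y), C₀ᶜ.indicator (fun _ => (1 : ℝ)) s| ≤
          t / 2 * K + 1 / (2 * t) * ∫ z in Ioo a b, C₀ᶜ.indicator (fun _ => (1 : ℝ)) (g z) := by
      intro t ht
      refine lim hgm (fun M => (F M)ᶜ.indicator (fun _ => (1 : ℝ))) _ (fun M => ?_) (fun M s => ?_)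
        (fun M s => ?_) (fun s => ?_) (fun M => h1 t ht M)
      · exact measurable_const.indicator (hFf M).measurableSet.compl
      · exact indicator_nonneg (fun _ _ => zero_le_one) s
      · exact indicator_le_self' (fun _ _ => zero_le_one) s
      · by_cases hs : s ∈ C₀
        · rw [indicator_of_notMem (by simpa using hs)]
          rw [he] at hs
          obtain ⟨i, rfl⟩ := hs
          refine tendsto_const_nhds.congr' ?_
          filter_upwards [eventually_ge_atTop i] with M hM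
          rw [indicator_of_notMem]
          simp only [mem_compl_iff, not_not]
          exact ⟨i, hM, rfl⟩
        · rw [indicator_of_mem (by simpa using hs)]
          refine tendsto_const_nhds.congr fun M => ?_
          rw [indicator_of_mem]
          rintro ⟨i, -, rfl⟩
          exact hs (he ▸ mem_range_self i)
    have h3 : ∫ s in (g x)..(g y), C₀ᶜ.indicator (fun _ => (1 : ℝ)) s = g y - g x := by
      have h4 : ∫ s in (g x)..(g y), C₀ᶜ.indicator (fun _ => (1 : ℝ)) s =
          ∫ s in (g x)..(g y), (1 : ℝ) := by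
        refine intervalIntegral.integral_congr_ae ?_
        have h5 : ∀ᵐ s : ℝ, s ∉ C₀ := by
          rw [ae_iff]
          simpa using hC.measure_zero volume
        filter_upwards [h5] with s hs _
        rw [indicator_of_mem (by simpa using hs)]
      rw [h4]
      simp
    have h6 : ∫ z in Ioo a b, C₀ᶜ.indicator (fun _ => (1 : ℝ)) (g z) = 0 := by
      rw [integral_eq_zero_of_ae]
      filter_upwards [hg] with z hz
      rw [indicator_of_notMem (by simpa using hz)]
      rfl
    have h7 : ∀ t : ℝ, 0 < t → |g y - g x| ≤ t / 2 * K := by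
      intro t ht
      have := h2 t ht
      rw [h3, h6, mul_zero, add_zero] at this
      exact this
    by_contra hne'
    have h8 : 0 < |g y - g x| := abs_pos.2 (sub_ne_zero.2 hne')
    have hK0 : 0 < K := by
      have := h7 1 one_pos
      linarith
    have h9 := h7 (|g y - g x| / K) (by positivity)
    have h10 : |g y - g x| / K / 2 * K = |g y - g x| / 2 := by field_simp
    rw [h10] at h9
    linarith
  refine ⟨g x₀, ?_⟩
  filter_upwards [hx, hl] with y hy hyl
  rcases le_total x₀ y with h | h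
  · exact main x₀ y hx₀ hy h hx₀l hyl
  · exact (main y x₀ hy hx₀ h hyl hx₀l).symm

end Vale.Agent.P284.H287.AE
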