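import Vale.Agent.P284.H894.AE.Spec
import Vale.Agent.P284.H287.AE.AE1c

/-! # P284, theorem AE (helper287): row AE1c, literal -/

namespace Vale.Agent.P284.H287.AE

/-- **AE1c** -/
theorem ae1c : Vale.Agent.P284.H894.AE.AE1c :=
  fun a b K hab f g hf hl hK C₀ hC hg => real_line a b K hab f g hf hl hK C₀ hC hg

end Vale.Agent.P284.H287.AE
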